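import Vale.Agent.P238.Main

/-!
P238: the `ℓ₁` distortion of edit distance on `{0,1}^n` is at least `exp (c √(log n))`.
-/

namespace Vale.Agent.Results.P238.SuperPolylog

open Vale.Agent.P238

theorem result :
    ∃ c : ℝ, 0 < c ∧ ∃ N : ℕ, ∀ n ≥ N,
      Real.exp (c * Real.sqrt (Real.log n)) ≤ editDistortion n :=
  editDistortion_lower

end Vale.Agent.Results.P238.SuperPolylog
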